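import Mathlib
import Vale.Agent.P329.Main

/-!
Every language recognized by a finite group having an abelian normal subgroup with elementary
abelian quotient has generalized star height at most one.
-/

namespace Vale.Agent.Results.P329.AbelianByElementary

open Vale.Agent.P329

theorem result :
    ∀ (α : Type) [Fintype α] (G : Type) [Group G] [Finite G] (p : ℕ), p.Prime →
      ∀ A : Subgroup G, A.Normal →
        (∀ x ∈ A, ∀ y ∈ A, x * y = y * x) →
        (∀ g : G, g ^ p ∈ A) →
        (∀ g h : G, g * h * g⁻¹ * h⁻¹ ∈ A) →
        ∀ (f : α → G) (S : Set G),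
          ∃ e : GenExpr α, (∀ w : List α, w ∈ e.lang ↔ (w.map f).prod ∈ S) ∧
            e.starHeight ≤ 1 := by
  intro α _ G _ _ p hp A hA hab hpow hcomm f S
  obtain ⟨e, he, hh⟩ := heightLE_abelian_by_elementary hp A hab hpow hcomm f S
  exact ⟨e, fun w => by rw [he, mem_langOf], hh⟩

end Vale.Agent.Results.P329.AbelianByElementary
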