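import Mathlib
import Vale.Agent.P329.Monotone

/-!
Languages of actions in which every move increases the state or resets it to zero, in particular
the word languages of all symmetric groups with their two standard generators, have generalized
star height at most one.
-/

namespace Vale.Agent.Results.P329.MonotoneActions

open Vale.Agent.P329

theorem result :
    (∀ (α : Type) [Fintype α] (n : ℕ) (step : Fin (n + 1) → α → Fin (n + 1)),
      (∀ s x, step s x = 0 ∨ s ≤ step s x) →
        ∀ A : Set (Fin (n + 1) → Fin (n + 1)),
          ∃ e : GenExpr α, (∀ w : List α, w ∈ e.lang ↔ (fun s => w.foldl step s) ∈ A) ∧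
            e.starHeight ≤ 1) ∧
    (∀ n : ℕ,
      Subgroup.closure
          (Set.range fun b : Bool =>
            if b then (finRotate (n + 2))⁻¹ else Equiv.swap (0 : Fin (n + 2)) 1) = ⊤ ∧
        ∀ S : Set (Equiv.Perm (Fin (n + 2))),
          ∃ e : GenExpr Bool,
            (∀ w : List Bool, w ∈ e.lang ↔
              (w.map fun b : Bool =>
                if b then (finRotate (n + 2))⁻¹ else Equiv.swap (0 : Fin (n + 2)) 1).prod ∈ S) ∧
              e.starHeight ≤ 1) := by
  refine ⟨fun α _ n step h A => ?_, fun n => ⟨closure_symGen n, fun S => ?_⟩⟩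
  · obtain ⟨e, he, hh⟩ := heightLE_monotone_action step h A
    exact ⟨e, fun w => by rw [he, mem_langOf], hh⟩
  · obtain ⟨e, he, hh⟩ := heightLE_symGen n S
    exact ⟨e, fun w => by rw [he, mem_langOf]; rfl, hh⟩

end Vale.Agent.Results.P329.MonotoneActions
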