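import Mathlib
import Vale.Agent.P329.Metabelian4

/-!
Every language recognized by a finite nilpotent group of class at most three, or of class at most
four with abelian derived subgroup, has generalized star height at most one.
-/

namespace Vale.Agent.Results.P329.NilpotentClassFour

open Vale.Agent.P329
open scoped commutatorElement

theorem result :
    ∀ (α : Type) [Fintype α] (G : Type) [Group G] [Finite G] [Group.IsNilpotent G],
      Group.nilpotencyClass G ≤ 3 ∨
          (Group.nilpotencyClass G ≤ 4 ∧
            ∀ a ∈ commutator G, ∀ b ∈ commutator G, a * b = b * a) →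
        ∀ (f : α → G) (S : Set G),
          ∃ e : GenExpr α, (∀ w : List α, w ∈ e.lang ↔ (w.map f).prod ∈ S) ∧
            e.starHeight ≤ 1 := by
  intro α _ G _ _ _ hyp f S
  classical
  have hbr : ∀ (n : ℕ) (z b : G), z ∈ (⊤ : Subgroup G).lowerCentralSeries n →
      br z b ∈ (⊤ : Subgroup G).lowerCentralSeries (n + 1) := by
    intro n z b hz
    rw [Subgroup.lowerCentralSeries_succ]
    have : br z b = ⁅z⁻¹, b⁻¹⁆ := by simp [br, commutatorElement_def]
    rw [this]
    exact Subgroup.commutator_mem_commutator (inv_mem hz) (Subgroup.mem_top _)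
  have hcases : Group.nilpotencyClass G ≤ 4 ∧
      ∀ a ∈ commutator G, ∀ b ∈ commutator G, a * b = b * a := by
    rcases hyp with hc | hc
    · refine ⟨hc.trans (by norm_num), ?_⟩
      have hbot : (⊤ : Subgroup G).lowerCentralSeries 3 = ⊥ :=
        Subgroup.lowerCentralSeries_eq_bot_iff_nilpotencyClass_le.2 hc
      have h3 : ClassLE3 G := by
        intro a b c
        rw [Subgroup.mem_center_iff]
        intro d
        have h := hbr 2 _ d (hbr 1 _ c (hbr 0 a b (by simp)))
        rw [hbot, Subgroup.mem_bot] at h
        exact ((br_eq_one_iff _ _).1 h).symm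
      exact fun a ha b hb => (br_eq_one_iff _ _).1 (br_right_commutator h3 ha hb)
    · exact hc
  obtain ⟨hc, hab⟩ := hcases
  have : IsMulCommutative (commutator G) :=
    ⟨⟨fun x y => Subtype.ext (hab x.1 x.2 y.1 y.2)⟩⟩
  have hbot : (⊤ : Subgroup G).lowerCentralSeries 4 = ⊥ :=
    Subgroup.lowerCentralSeries_eq_bot_iff_nilpotencyClass_le.2 hc
  have h4 : DelCube G := by
    intro b c d z
    apply dmod_ext
    rw [del_val, del_val, del_val]
    have hz : ((Additive.toMul z : commutator G) : G)
        ∈ (⊤ : Subgroup G).lowerCentralSeries 1 := by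
      simp [commutator_def, Subgroup.lowerCentralSeries_succ]
    have h := hbr 3 _ b (hbr 2 _ c (hbr 1 _ d hz))
    rw [hbot, Subgroup.mem_bot] at h
    exact h
  obtain ⟨e, he, hh⟩ := heightLE_metabelian4 h4 f S
  exact ⟨e, fun w => by rw [he, mem_langOf], hh⟩

end Vale.Agent.Results.P329.NilpotentClassFour
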